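import Vale.Agent.Lib.P322.Pot.Ult.Star

/-!
P322 (Courtade-Kumar).  The inequality `I(f(X);Y) ≤ 1 - h2(ε)` for every `n`, every Boolean function `f` on the `n`-cube and every
`ε ∈ [1/25, 1/2]`, stated with Mathlib notions only: `P` is the law of `(X, Z)`, `p` the joint law of `(f(X), Y)`, `Y = X * Z`.
-/

namespace Vale.Agent.Results.P322.AllBoolean04Inline

open Vale.Agent.Lib.P322

theorem result : ∀ (n : ℕ) (f : (Fin n → ℤˣ) → ℤˣ) (ε : ℝ), 1 / 25 ≤ ε → ε ≤ 1 / 2 →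
    ∀ (P : (Fin n → ℤˣ) × (Fin n → ℤˣ) → ℝ),
      (∀ x z, P (x, z) = (1 / 2 : ℝ) ^ n * ∏ i, (if z i = -1 then ε else 1 - ε)) →
    ∀ (p : ℤˣ → (Fin n → ℤˣ) → ℝ),
      (∀ a y, p a y = ∑ ω : (Fin n → ℤˣ) × (Fin n → ℤˣ),
        if f ω.1 = a ∧ ω.1 * ω.2 = y then P ω else 0) →
    ∑ a, ∑ y, p a y * Real.logb 2 (p a y / ((∑ y', p a y') * (∑ a', p a' y)))
      ≤ 1 - (-ε * Real.logb 2 ε - (1 - ε) * Real.logb 2 (1 - ε)) := by
  intro n f ε h0 h1 P hP p hp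
  have key := Pot.ck_ult h0 h1 f
  have hPe : P = prob ε := by
    funext ω
    obtain ⟨x, z⟩ := ω
    rw [hP]
    rfl
  have hpe : p = jointLaw ε (fun ω => f ω.1) (fun ω => ω.1 * ω.2) := by
    funext a y
    rw [hp, hPe]
    rfl
  have hh : h2 ε = -ε * Real.logb 2 ε - (1 - ε) * Real.logb 2 (1 - ε) := by
    unfold h2 Real.binEntropy Real.logb
    rw [Real.log_inv, Real.log_inv]
    ring
  rw [← hh, hpe]
  exact key

end Vale.Agent.Results.P322.AllBoolean04Inline
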