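import Vale.Agent.Lib.P322.Pot.Ult.Soft

/-!
P322 (Courtade-Kumar).  For every `n`, every Boolean function `f` on the `n`-cube and every crossover probability `ε ∈ [1/25, 1/2]`:
`I(f(X);Y) ≤ 1 - h2(ε)`, together with a sharper bound that depends on the bias `a = P(f(X) = 1)`:
`I(f(X);Y) ≤ (1 - h2(ε)) (1 - J^2)` whenever `J ≥ 0` and `h2(ε) J + (1 - h2(ε)) J^2 ≤ 1 - h2(a)`; in particular for `J = 1 - h2(a)`.
-/

namespace Vale.Agent.Results.P322.AllBoolean05Bias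

open Vale.Agent.Lib.P322

theorem result : ∀ (n : ℕ) (f : Cube n → ℤˣ) (ε : ℝ), 1 / 25 ≤ ε → ε ≤ 1 / 2 →
    infoFY ε f ≤ 1 - h2 ε ∧
    (∀ J : ℝ, 0 ≤ J → h2 ε * J + (1 - h2 ε) * J ^ 2 ≤ 1 - h2 (probOne f) →
      infoFY ε f ≤ (1 - h2 ε) * (1 - J ^ 2)) ∧
    infoFY ε f ≤ (1 - h2 ε) * (1 - (1 - h2 (probOne f)) ^ 2) :=
  fun _ f _ h0 h1 => ⟨Pot.ck_ult h0 h1 f, fun _ hJ0 hJ => Pot.ck_ult_J h0 h1 f hJ0 hJ,
    Pot.ck_ult_explicit h0 h1 f⟩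

end Vale.Agent.Results.P322.AllBoolean05Bias
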