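import Vale.Agent.Lib.P322.Pot.Top.Star

/-!
P322 (Courtade-Kumar).  For every `n`, every Boolean function `f` on the `n`-cube (balanced or not) and every crossover probability
`ε ∈ [1/16, 1/2]`, `I(f(X);Y) ≤ 1 - h2(ε)`.
-/

namespace Vale.Agent.Results.P322.AllBoolean06

open Vale.Agent.Lib.P322

theorem result : ∀ (n : ℕ) (f : Cube n → ℤˣ) (ε : ℝ), 1 / 16 ≤ ε → ε ≤ 1 / 2 →
    infoFY ε f ≤ 1 - h2 ε :=
  fun _ f _ h0 h1 => Pot.ck_top h0 h1 f

end Vale.Agent.Results.P322.AllBoolean06
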