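import Vale.Agent.Lib.P322.Pot.Hi.Star

/-!
P322 (Courtade-Kumar).  The conjectured inequality `I(f(X);Y) ≤ 1 - h2(ε)` for every Boolean function
(balanced or not), every dimension, and every crossover probability `ε ∈ [1/10, 1/2]`
(noise correlation `ρ = 1 - 2ε ∈ [0, 4/5]`).
-/

namespace Vale.Agent.Results.P322.AllBoolean10

open Vale.Agent.Lib.P322

theorem result : ∀ (n : ℕ) (f : Cube n → ℤˣ) (ε : ℝ), 1 / 10 ≤ ε → ε ≤ 1 / 2 →
    infoFY ε f ≤ 1 - h2 ε :=
  fun _ f _ h0 h1 => Pot.ck_hi h0 h1 f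

end Vale.Agent.Results.P322.AllBoolean10
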