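import Vale.Agent.Lib.P322.Pot.Induct

/-!
P322 (Courtade-Kumar).  The conjectured inequality `I(f(X);Y) ≤ 1 - h2(ε)` for every Boolean function
(balanced or not), every dimension, and every crossover probability `ε ∈ [1/4, 1/2]`.
-/

namespace Vale.Agent.Results.P322.AllBooleanQuarter

open Vale.Agent.Lib.P322

theorem result : ∀ (n : ℕ) (f : Cube n → ℤˣ) (ε : ℝ), 1 / 4 ≤ ε → ε ≤ 1 / 2 →
    infoFY ε f ≤ 1 - h2 ε :=
  fun _ f _ h0 h1 => Pot.ck_quarter h0 h1 f

end Vale.Agent.Results.P322.AllBooleanQuarter
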