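import Vale.Agent.Lib.P322.CoordSum

/-!
P322 (Courtade-Kumar).  The coordinatewise weakening `∑ I(f(X);Y_i) ≤ 1 - h2(ε)` holds for every
Boolean function, with no balance assumption.
-/

namespace Vale.Agent.Results.P322.Coordinatewise

open Vale.Agent.Lib.P322

theorem result : ∀ (n : ℕ) (f : Cube n → ℤˣ) (ε : ℝ), 0 ≤ ε → ε ≤ 1 / 2 →
    ∑ i, infoFYi ε f i ≤ 1 - h2 ε :=
  fun _ f _ h0 h1 => coordinatewise h0 h1 f

end Vale.Agent.Results.P322.Coordinatewise
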