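import Vale.Agent.Lib.P322.InfluenceCor

/-!
P322 (Courtade-Kumar).  A dimension-free bound on `I(f(X);Y)` in terms of the influence of one
coordinate; it is tight for dictators, and it gives the conjectured inequality for every Boolean
function (balanced or not) that has an influential coordinate.
-/

namespace Vale.Agent.Results.P322.InfluenceBound

open Vale.Agent.Lib.P322

theorem result : ∀ (n : ℕ) (f : Cube n → ℤˣ) (i : Fin n) (ε : ℝ), 0 ≤ ε → ε ≤ 1 / 2 →
    (infoFY ε f ≤ 1 - (1 - (1 - 2 * ε) ^ 2) * h2 ((1 + (1 - 2 * ε) * influence f i) / 2)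
        - (1 - 2 * ε) ^ 2 * influence f i * h2 ε) ∧
    ((1 - 2 * ε) ^ 2 ≤ (1 - h2 ε) * (1 + 4 * ε * (1 - ε) * influence f i) →
        infoFY ε f ≤ 1 - h2 ε) ∧
    (2 * Real.log 2 - 1 ≤ 4 * ε * (1 - ε) * influence f i → infoFY ε f ≤ 1 - h2 ε) :=
  fun _ f i _ h0 h1 =>
    ⟨influence_bound h0 h1 f i, conj_of_influence h0 h1 f i, conj_of_influence' h0 h1 f i⟩

end Vale.Agent.Results.P322.InfluenceBound
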